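/-
Row 324, module MP (scalar curvature evolution): calculus of smooth functions of `(t, r)` on an
arbitrary nonempty or empty region `U` of the plane which is topologically an interior region.
Partial derivatives `mpDt`, `mpDr`, their smoothness, congruence and commutation.
-/
import Mathlib

set_option autoImplicit false

namespace Claimed.Agent.R324

open Set
open scoped ContDiff

/-- partial derivative in the first variable. -/
noncomputable def mpDt (f : ℝ × ℝ → ℝ) (p : ℝ × ℝ) : ℝ := deriv (fun s => f (s, p.2)) p.1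

/-- partial derivative in the second variable. -/
noncomputable def mpDr (f : ℝ × ℝ → ℝ) (p : ℝ × ℝ) : ℝ := deriv (fun z => f (p.1, z)) p.2

variable {U : Set (ℝ × ℝ)} {f g : ℝ × ℝ → ℝ}

theorem mp_contDiffAt (hU : IsOpen U) (h : ContDiffOn ℝ ∞ f U) {p : ℝ × ℝ} (hp : p ∈ U) :
    ContDiffAt ℝ ∞ f p := h.contDiffAt (hU.mem_nhds hp)

theorem mpDt_eq_fderiv (hU : IsOpen U) (h : ContDiffOn ℝ ∞ f U) {p : ℝ × ℝ} (hp : p ∈ U) :
    mpDt f p = fderiv ℝ f p (1, 0) := by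
  have hd : DifferentiableAt ℝ f p := (mp_contDiffAt hU h hp).differentiableAt (by simp)
  have h1 : HasDerivAt (fun s : ℝ => (s, p.2)) ((1 : ℝ), (0 : ℝ)) p.1 :=
    (hasDerivAt_id p.1).prodMk (hasDerivAt_const p.1 p.2)
  have h2 : HasFDerivAt f (fderiv ℝ f p) ((fun s : ℝ => (s, p.2)) p.1) := hd.hasFDerivAt
  exact (h2.comp_hasDerivAt p.1 h1).deriv

theorem mpDr_eq_fderiv (hU : IsOpen U) (h : ContDiffOn ℝ ∞ f U) {p : ℝ × ℝ} (hp : p ∈ U) :
    mpDr f p = fderiv ℝ f p (0, 1) := by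
  have hd : DifferentiableAt ℝ f p := (mp_contDiffAt hU h hp).differentiableAt (by simp)
  have h1 : HasDerivAt (fun y : ℝ => (p.1, y)) ((0 : ℝ), (1 : ℝ)) p.2 :=
    (hasDerivAt_const p.2 p.1).prodMk (hasDerivAt_id p.2)
  have h2 : HasFDerivAt f (fderiv ℝ f p) ((fun y : ℝ => (p.1, y)) p.2) := hd.hasFDerivAt
  exact (h2.comp_hasDerivAt p.2 h1).deriv

theorem mp_hasDerivAt_t (hU : IsOpen U) (h : ContDiffOn ℝ ∞ f U) {t r : ℝ} (hp : (t, r) ∈ U) :
    HasDerivAt (fun s => f (s, r)) (mpDt f (t, r)) t := by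
  have hd : DifferentiableAt ℝ f (t, r) := (mp_contDiffAt hU h hp).differentiableAt (by simp)
  have h1 : HasDerivAt (fun s : ℝ => (s, r)) ((1 : ℝ), (0 : ℝ)) t :=
    (hasDerivAt_id t).prodMk (hasDerivAt_const t r)
  have h2 : HasFDerivAt f (fderiv ℝ f (t, r)) ((fun s : ℝ => (s, r)) t) := hd.hasFDerivAt
  rw [mpDt_eq_fderiv hU h hp]
  exact h2.comp_hasDerivAt t h1

theorem mp_hasDerivAt_r (hU : IsOpen U) (h : ContDiffOn ℝ ∞ f U) {t r : ℝ} (hp : (t, r) ∈ U) :
    HasDerivAt (fun z => f (t, z)) (mpDr f (t, r)) r := by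
  have hd : DifferentiableAt ℝ f (t, r) := (mp_contDiffAt hU h hp).differentiableAt (by simp)
  have h1 : HasDerivAt (fun y : ℝ => (t, y)) ((0 : ℝ), (1 : ℝ)) r :=
    (hasDerivAt_const r t).prodMk (hasDerivAt_id r)
  have h2 : HasFDerivAt f (fderiv ℝ f (t, r)) ((fun y : ℝ => (t, y)) r) := hd.hasFDerivAt
  rw [mpDr_eq_fderiv hU h hp]
  exact h2.comp_hasDerivAt r h1

theorem mp_smooth_Dt (hU : IsOpen U) (h : ContDiffOn ℝ ∞ f U) : ContDiffOn ℝ ∞ (mpDt f) U := by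
  have h1 : ContDiffOn ℝ ∞ (fderiv ℝ f) U := ContDiffOn.fderiv_of_isOpen h hU (by simp)
  have h2 : ContDiffOn ℝ ∞ (fun q => fderiv ℝ f q (1, 0)) U := h1.clm_apply contDiffOn_const
  exact h2.congr fun p hp => mpDt_eq_fderiv hU h hp

theorem mp_smooth_Dr (hU : IsOpen U) (h : ContDiffOn ℝ ∞ f U) : ContDiffOn ℝ ∞ (mpDr f) U := by
  have h1 : ContDiffOn ℝ ∞ (fderiv ℝ f) U := ContDiffOn.fderiv_of_isOpen h hU (by simp)
  have h2 : ContDiffOn ℝ ∞ (fun q => fderiv ℝ f q (0, 1)) U := h1.clm_apply contDiffOn_const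
  exact h2.congr fun p hp => mpDr_eq_fderiv hU h hp

/-- `mpDr` only depends on the values on `U`. -/
theorem mpDr_congr (hU : IsOpen U) (h : ∀ p ∈ U, f p = g p) :
    ∀ p ∈ U, mpDr f p = mpDr g p := by
  intro p hp
  have hc : Continuous (fun z : ℝ => (p.1, z)) := by fun_prop
  have hm : (fun z : ℝ => (p.1, z)) ⁻¹' U ∈ nhds p.2 := (hU.preimage hc).mem_nhds hp
  have he : (fun z => f (p.1, z)) =ᶠ[nhds p.2] (fun z => g (p.1, z)) := by
    filter_upwards [hm] with z hz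
    exact h _ hz
  exact he.deriv_eq

/-- value of `mpDr` from a `HasDerivAt`. -/
theorem mpDr_eq_of_hasDerivAt {t r d : ℝ} (h : HasDerivAt (fun z => f (t, z)) d r) :
    mpDr f (t, r) = d := h.deriv

/-- value of `mpDt` from a `HasDerivAt`. -/
theorem mpDt_eq_of_hasDerivAt {t r d : ℝ} (h : HasDerivAt (fun s => f (s, r)) d t) :
    mpDt f (t, r) = d := h.deriv

/-- symmetry of second derivatives. -/
theorem mp_comm (hU : IsOpen U) (h : ContDiffOn ℝ ∞ f U) :
    ∀ p ∈ U, mpDt (mpDr f) p = mpDr (mpDt f) p := by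
  intro p hp
  have hUn : U ∈ nhds p := hU.mem_nhds hp
  have hc : ContDiffAt ℝ ∞ f p := mp_contDiffAt hU h hp
  have hdd : DifferentiableAt ℝ (fderiv ℝ f) p := by
    have h1 : ContDiffOn ℝ ∞ (fderiv ℝ f) U := ContDiffOn.fderiv_of_isOpen h hU (by simp)
    exact (h1.contDiffAt hUn).differentiableAt (by simp)
  have hsymm : IsSymmSndFDerivAt ℝ f p := hc.isSymmSndFDerivAt (by
    rw [minSmoothness_of_isRCLikeNormedField]
    exact (WithTop.coe_le_coe (a := (⊤ : ℕ∞)) (b := (2 : ℕ∞))).2 le_top)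
  have key : ∀ v : ℝ × ℝ, fderiv ℝ (fun q => fderiv ℝ f q v) p
      = (fderiv ℝ (fderiv ℝ f) p).flip v := by
    intro v
    have := (hdd.hasFDerivAt.clm_apply (hasFDerivAt_const v p)).fderiv
    rw [this, ContinuousLinearMap.comp_zero, zero_add]
  have e1 : mpDr f =ᶠ[nhds p] fun q => fderiv ℝ f q (0, 1) := by
    filter_upwards [hUn] with q hq'
    exact mpDr_eq_fderiv hU h hq'
  have e2 : mpDt f =ᶠ[nhds p] fun q => fderiv ℝ f q (1, 0) := by
    filter_upwards [hUn] with q hq'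
    exact mpDt_eq_fderiv hU h hq'
  rw [mpDt_eq_fderiv hU (mp_smooth_Dr hU h) hp, mpDr_eq_fderiv hU (mp_smooth_Dt hU h) hp,
    e1.fderiv_eq, e2.fderiv_eq, key, key]
  exact hsymm _ _

end Claimed.Agent.R324
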