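/-
Row 324, module MP (scalar curvature evolution): one-variable calculus of the reduced curvature
expressions, written as functions of jets (sequences `ℕ → ℝ` of derivatives).
-/
import Claimed.Agent.R324.MP.Alg

set_option autoImplicit false

namespace Claimed.Agent.R324

variable {q x : ℝ}

section poly

variable {a1 a2 b1 b2 b3 c1 c2 c3 : ℝ → ℝ} {a1' a2' b1' b2' b3' c1' c2' c3' : ℝ}

theorem mp_hd_PA (ha1 : HasDerivAt a1 a1' x) (hb1 : HasDerivAt b1 b1' x)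
    (hb2 : HasDerivAt b2 b2' x) (hc1 : HasDerivAt c1 c1' x) (hc2 : HasDerivAt c2 c2' x) :
    HasDerivAt (fun z => mpPA q (a1 z) (b1 z) (b2 z) (c1 z) (c2 z))
      (q * b2' + 2 * c2' + q * b1 x * b1' + 2 * c1 x * c1' - a1' * (q * b1 x / 2 + c1 x)
        - a1 x * (q * b1' / 2 + c1')) x := by
  unfold mpPA
  have h := ((((hb2.const_mul q).add (hc2.const_mul 2)).add ((hb1.pow 2).const_mul (q / 2))).add
    (hc1.pow 2)).sub (ha1.mul (((hb1.const_mul q).div_const 2).add hc1))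
  refine h.congr_deriv ?_
  norm_num
  ring

theorem mp_hd_PB (ha1 : HasDerivAt a1 a1' x) (hb1 : HasDerivAt b1 b1' x)
    (hb2 : HasDerivAt b2 b2' x) (hc1 : HasDerivAt c1 c1' x) :
    HasDerivAt (fun z => mpPB q (a1 z) (b1 z) (b2 z) (c1 z))
      (b2' - (a1' * b1 x + a1 x * b1') / 2 + q * b1 x * b1' + b1' * c1 x + b1 x * c1') x := by
  unfold mpPB
  have h := ((hb2.sub ((ha1.mul hb1).div_const 2)).add ((hb1.pow 2).const_mul (q / 2))).add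
    (hb1.mul hc1)
  refine h.congr_deriv ?_
  norm_num
  ring

theorem mp_hd_PC (ha1 : HasDerivAt a1 a1' x) (hb1 : HasDerivAt b1 b1' x)
    (hc1 : HasDerivAt c1 c1' x) (hc2 : HasDerivAt c2 c2' x) :
    HasDerivAt (fun z => mpPC q (a1 z) (b1 z) (c1 z) (c2 z))
      (c2' - (a1' * c1 x + a1 x * c1') / 2 + q / 2 * (b1' * c1 x + b1 x * c1')
        + 2 * c1 x * c1') x := by
  unfold mpPC
  have h := ((hc2.sub ((ha1.mul hc1).div_const 2)).add ((hb1.const_mul (q / 2)).mul hc1)).add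
    (hc1.pow 2)
  refine h.congr_deriv ?_
  norm_num
  ring

theorem mp_hd_PA1 (ha1 : HasDerivAt a1 (a2 x) x) (ha2 : HasDerivAt a2 a2' x)
    (hb1 : HasDerivAt b1 (b2 x) x) (hb2 : HasDerivAt b2 (b3 x) x) (hb3 : HasDerivAt b3 b3' x)
    (hc1 : HasDerivAt c1 (c2 x) x) (hc2 : HasDerivAt c2 (c3 x) x) (hc3 : HasDerivAt c3 c3' x) :
    HasDerivAt (fun z => mpPA1 q (a1 z) (a2 z) (b1 z) (b2 z) (b3 z) (c1 z) (c2 z) (c3 z))
      (mpPA2 q (a1 x) (a2 x) a2' (b1 x) (b2 x) (b3 x) b3' (c1 x) (c2 x) (c3 x) c3') x := by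
  unfold mpPA1 mpPA2
  have h := (((((hb3.const_mul q).add (hc3.const_mul 2)).add ((hb1.const_mul q).mul hb2)).add
    ((hc1.const_mul 2).mul hc2)).sub (ha2.mul (((hb1.const_mul q).div_const 2).add hc1))).sub
    (ha1.mul (((hb2.const_mul q).div_const 2).add hc2))
  refine h.congr_deriv ?_
  simp only [Pi.add_apply]
  ring

theorem mp_hd_PB1 (ha1 : HasDerivAt a1 (a2 x) x) (ha2 : HasDerivAt a2 a2' x)
    (hb1 : HasDerivAt b1 (b2 x) x) (hb2 : HasDerivAt b2 (b3 x) x) (hb3 : HasDerivAt b3 b3' x)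
    (hc1 : HasDerivAt c1 (c2 x) x) (hc2 : HasDerivAt c2 c2' x) :
    HasDerivAt (fun z => mpPB1 q (a1 z) (a2 z) (b1 z) (b2 z) (b3 z) (c1 z) (c2 z))
      (mpPB2 q (a1 x) (a2 x) a2' (b1 x) (b2 x) (b3 x) b3' (c1 x) (c2 x) c2') x := by
  unfold mpPB1 mpPB2
  have h := (((hb3.sub (((ha2.mul hb1).add (ha1.mul hb2)).div_const 2)).add
    ((hb1.const_mul q).mul hb2)).add (hb2.mul hc1)).add (hb1.mul hc2)
  refine h.congr_deriv ?_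
  ring

theorem mp_hd_PC1 (ha1 : HasDerivAt a1 (a2 x) x) (ha2 : HasDerivAt a2 a2' x)
    (hb1 : HasDerivAt b1 (b2 x) x) (hb2 : HasDerivAt b2 b2' x)
    (hc1 : HasDerivAt c1 (c2 x) x) (hc2 : HasDerivAt c2 (c3 x) x) (hc3 : HasDerivAt c3 c3' x) :
    HasDerivAt (fun z => mpPC1 q (a1 z) (a2 z) (b1 z) (b2 z) (c1 z) (c2 z) (c3 z))
      (mpPC2 q (a1 x) (a2 x) a2' (b1 x) (b2 x) b2' (c1 x) (c2 x) (c3 x) c3') x := by
  unfold mpPC1 mpPC2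
  have h := ((hc3.sub (((ha2.mul hc1).add (ha1.mul hc2)).div_const 2)).add
    (((hb2.mul hc1).add (hb1.mul hc2)).const_mul (q / 2))).add ((hc1.const_mul 2).mul hc2)
  refine h.congr_deriv ?_
  ring

end poly

theorem mp_hd_exp {α : ℝ → ℝ} {α' : ℝ} (hα : HasDerivAt α α' x) :
    HasDerivAt (fun z => Real.exp (-α z)) (-α' * Real.exp (-α x)) x := by
  have h := hα.neg.exp
  refine h.congr_deriv ?_
  simp only [Pi.neg_apply]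
  ring

theorem mp_hd_expmul {α P : ℝ → ℝ} {α' P' : ℝ} (hα : HasDerivAt α α' x)
    (hP : HasDerivAt P P' x) :
    HasDerivAt (fun z => Real.exp (-α z) * P z)
      (-α' * Real.exp (-α x) * P x + Real.exp (-α x) * P') x :=
  (mp_hd_exp hα).mul hP

/-! ### the curvature expressions as functions of jets -/

/-- `rfA`. -/
noncomputable def mpA0 (q : ℝ) (ja jb jc : ℕ → ℝ) : ℝ :=
  Real.exp (-ja 0) * mpPA q (ja 1) (jb 1) (jb 2) (jc 1) (jc 2)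

/-- `∂_r rfA`. -/
noncomputable def mpA1 (q : ℝ) (ja jb jc : ℕ → ℝ) : ℝ :=
  Real.exp (-ja 0) * (mpPA1 q (ja 1) (ja 2) (jb 1) (jb 2) (jb 3) (jc 1) (jc 2) (jc 3)
    - ja 1 * mpPA q (ja 1) (jb 1) (jb 2) (jc 1) (jc 2))

/-- `∂_r^2 rfA`. -/
noncomputable def mpA2 (q : ℝ) (ja jb jc : ℕ → ℝ) : ℝ :=
  Real.exp (-ja 0) * (mpPA2 q (ja 1) (ja 2) (ja 3) (jb 1) (jb 2) (jb 3) (jb 4) (jc 1) (jc 2)
      (jc 3) (jc 4)
    - ja 2 * mpPA q (ja 1) (jb 1) (jb 2) (jc 1) (jc 2)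
    - 2 * ja 1 * mpPA1 q (ja 1) (ja 2) (jb 1) (jb 2) (jb 3) (jc 1) (jc 2) (jc 3)
    + ja 1 ^ 2 * mpPA q (ja 1) (jb 1) (jb 2) (jc 1) (jc 2))

/-- derivative of `rfA` in a general direction, `ja'` etc. being the derivatives of the jets. -/
noncomputable def mpAt (q : ℝ) (ja jb jc ja' jb' jc' : ℕ → ℝ) : ℝ :=
  -ja' 0 * Real.exp (-ja 0) * mpPA q (ja 1) (jb 1) (jb 2) (jc 1) (jc 2)
    + Real.exp (-ja 0) * (q * jb' 2 + 2 * jc' 2 + q * jb 1 * jb' 1 + 2 * jc 1 * jc' 1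
      - ja' 1 * (q * jb 1 / 2 + jc 1) - ja 1 * (q * jb' 1 / 2 + jc' 1))

/-- `rfB`. -/
noncomputable def mpB0 (q : ℝ) (ja jb jc : ℕ → ℝ) : ℝ :=
  Real.exp (-ja 0) * mpPB q (ja 1) (jb 1) (jb 2) (jc 1) - 2 * (q - 1) * Real.exp (-jb 0)

/-- `∂_r rfB`. -/
noncomputable def mpB1 (q : ℝ) (ja jb jc : ℕ → ℝ) : ℝ :=
  Real.exp (-ja 0) * (mpPB1 q (ja 1) (ja 2) (jb 1) (jb 2) (jb 3) (jc 1) (jc 2)
    - ja 1 * mpPB q (ja 1) (jb 1) (jb 2) (jc 1)) + 2 * (q - 1) * jb 1 * Real.exp (-jb 0)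

/-- `∂_r^2 rfB`. -/
noncomputable def mpB2 (q : ℝ) (ja jb jc : ℕ → ℝ) : ℝ :=
  Real.exp (-ja 0) * (mpPB2 q (ja 1) (ja 2) (ja 3) (jb 1) (jb 2) (jb 3) (jb 4) (jc 1) (jc 2)
      (jc 3)
    - ja 2 * mpPB q (ja 1) (jb 1) (jb 2) (jc 1)
    - 2 * ja 1 * mpPB1 q (ja 1) (ja 2) (jb 1) (jb 2) (jb 3) (jc 1) (jc 2)
    + ja 1 ^ 2 * mpPB q (ja 1) (jb 1) (jb 2) (jc 1))
    - 2 * (q - 1) * (jb 1 ^ 2 - jb 2) * Real.exp (-jb 0)

/-- derivative of `rfB` in a general direction. -/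
noncomputable def mpBt (q : ℝ) (ja jb jc ja' jb' jc' : ℕ → ℝ) : ℝ :=
  -ja' 0 * Real.exp (-ja 0) * mpPB q (ja 1) (jb 1) (jb 2) (jc 1)
    + Real.exp (-ja 0) * (jb' 2 - (ja' 1 * jb 1 + ja 1 * jb' 1) / 2 + q * jb 1 * jb' 1
      + jb' 1 * jc 1 + jb 1 * jc' 1)
    + 2 * (q - 1) * jb' 0 * Real.exp (-jb 0)

/-- `rfC`. -/
noncomputable def mpC0 (q : ℝ) (ja jb jc : ℕ → ℝ) : ℝ :=
  Real.exp (-ja 0) * mpPC q (ja 1) (jb 1) (jc 1) (jc 2) - 2 * Real.exp (-jc 0)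

/-- `∂_r rfC`. -/
noncomputable def mpC1 (q : ℝ) (ja jb jc : ℕ → ℝ) : ℝ :=
  Real.exp (-ja 0) * (mpPC1 q (ja 1) (ja 2) (jb 1) (jb 2) (jc 1) (jc 2) (jc 3)
    - ja 1 * mpPC q (ja 1) (jb 1) (jc 1) (jc 2)) + 2 * jc 1 * Real.exp (-jc 0)

/-- `∂_r^2 rfC`. -/
noncomputable def mpC2 (q : ℝ) (ja jb jc : ℕ → ℝ) : ℝ :=
  Real.exp (-ja 0) * (mpPC2 q (ja 1) (ja 2) (ja 3) (jb 1) (jb 2) (jb 3) (jc 1) (jc 2) (jc 3)
      (jc 4)
    - ja 2 * mpPC q (ja 1) (jb 1) (jc 1) (jc 2)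
    - 2 * ja 1 * mpPC1 q (ja 1) (ja 2) (jb 1) (jb 2) (jc 1) (jc 2) (jc 3)
    + ja 1 ^ 2 * mpPC q (ja 1) (jb 1) (jc 1) (jc 2))
    - 2 * (jc 1 ^ 2 - jc 2) * Real.exp (-jc 0)

/-- derivative of `rfC` in a general direction. -/
noncomputable def mpCt (q : ℝ) (ja jb jc ja' jb' jc' : ℕ → ℝ) : ℝ :=
  -ja' 0 * Real.exp (-ja 0) * mpPC q (ja 1) (jb 1) (jc 1) (jc 2)
    + Real.exp (-ja 0) * (jc' 2 - (ja' 1 * jc 1 + ja 1 * jc' 1) / 2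
      + q / 2 * (jb' 1 * jc 1 + jb 1 * jc' 1) + 2 * jc 1 * jc' 1)
    + 2 * jc' 0 * Real.exp (-jc 0)

section gen

variable {α β γ : ℝ → ℕ → ℝ} {α' β' γ' : ℕ → ℝ}

theorem mp_hd_A0_gen (hα : ∀ k, HasDerivAt (fun z => α z k) (α' k) x)
    (hβ : ∀ k, HasDerivAt (fun z => β z k) (β' k) x)
    (hγ : ∀ k, HasDerivAt (fun z => γ z k) (γ' k) x) :
    HasDerivAt (fun z => mpA0 q (α z) (β z) (γ z)) (mpAt q (α x) (β x) (γ x) α' β' γ') x :=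
  mp_hd_expmul (hα 0) (mp_hd_PA (hα 1) (hβ 1) (hβ 2) (hγ 1) (hγ 2))

theorem mp_hd_B0_gen (hα : ∀ k, HasDerivAt (fun z => α z k) (α' k) x)
    (hβ : ∀ k, HasDerivAt (fun z => β z k) (β' k) x)
    (hγ : ∀ k, HasDerivAt (fun z => γ z k) (γ' k) x) :
    HasDerivAt (fun z => mpB0 q (α z) (β z) (γ z)) (mpBt q (α x) (β x) (γ x) α' β' γ') x := by
  have h := (mp_hd_expmul (hα 0) (mp_hd_PB (q := q) (hα 1) (hβ 1) (hβ 2) (hγ 1))).sub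
    ((mp_hd_exp (hβ 0)).const_mul (2 * (q - 1)))
  refine h.congr_deriv ?_
  unfold mpBt
  ring

theorem mp_hd_C0_gen (hα : ∀ k, HasDerivAt (fun z => α z k) (α' k) x)
    (hβ : ∀ k, HasDerivAt (fun z => β z k) (β' k) x)
    (hγ : ∀ k, HasDerivAt (fun z => γ z k) (γ' k) x) :
    HasDerivAt (fun z => mpC0 q (α z) (β z) (γ z)) (mpCt q (α x) (β x) (γ x) α' β' γ') x := by
  have h := (mp_hd_expmul (hα 0) (mp_hd_PC (q := q) (hα 1) (hβ 1) (hγ 1) (hγ 2))).sub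
    ((mp_hd_exp (hγ 0)).const_mul 2)
  refine h.congr_deriv ?_
  unfold mpCt
  ring

end gen

section chain

variable {α β γ : ℝ → ℕ → ℝ}

theorem mp_hd_A0 (hα : ∀ k, HasDerivAt (fun z => α z k) (α x (k + 1)) x)
    (hβ : ∀ k, HasDerivAt (fun z => β z k) (β x (k + 1)) x)
    (hγ : ∀ k, HasDerivAt (fun z => γ z k) (γ x (k + 1)) x) :
    HasDerivAt (fun z => mpA0 q (α z) (β z) (γ z)) (mpA1 q (α x) (β x) (γ x)) x := by
  refine (mp_hd_A0_gen (q := q) hα hβ hγ).congr_deriv ?_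
  unfold mpAt mpA1 mpPA1
  ring

theorem mp_hd_B0 (hα : ∀ k, HasDerivAt (fun z => α z k) (α x (k + 1)) x)
    (hβ : ∀ k, HasDerivAt (fun z => β z k) (β x (k + 1)) x)
    (hγ : ∀ k, HasDerivAt (fun z => γ z k) (γ x (k + 1)) x) :
    HasDerivAt (fun z => mpB0 q (α z) (β z) (γ z)) (mpB1 q (α x) (β x) (γ x)) x := by
  refine (mp_hd_B0_gen (q := q) hα hβ hγ).congr_deriv ?_
  unfold mpBt mpB1 mpPB1
  ring

theorem mp_hd_C0 (hα : ∀ k, HasDerivAt (fun z => α z k) (α x (k + 1)) x)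
    (hβ : ∀ k, HasDerivAt (fun z => β z k) (β x (k + 1)) x)
    (hγ : ∀ k, HasDerivAt (fun z => γ z k) (γ x (k + 1)) x) :
    HasDerivAt (fun z => mpC0 q (α z) (β z) (γ z)) (mpC1 q (α x) (β x) (γ x)) x := by
  refine (mp_hd_C0_gen (q := q) hα hβ hγ).congr_deriv ?_
  unfold mpCt mpC1 mpPC1
  ring

theorem mp_hd_A1 (hα : ∀ k, HasDerivAt (fun z => α z k) (α x (k + 1)) x)
    (hβ : ∀ k, HasDerivAt (fun z => β z k) (β x (k + 1)) x)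
    (hγ : ∀ k, HasDerivAt (fun z => γ z k) (γ x (k + 1)) x) :
    HasDerivAt (fun z => mpA1 q (α z) (β z) (γ z)) (mpA2 q (α x) (β x) (γ x)) x := by
  have hP := mp_hd_PA (q := q) (hα 1) (hβ 1) (hβ 2) (hγ 1) (hγ 2)
  have hP1 := mp_hd_PA1 (q := q) (hα 1) (hα 2) (hβ 1) (hβ 2) (hβ 3) (hγ 1) (hγ 2) (hγ 3)
  have h := mp_hd_expmul (hα 0) (hP1.sub ((hα 1).mul hP))
  refine h.congr_deriv ?_
  unfold mpA2 mpPA1
  simp only [Pi.sub_apply, Pi.mul_apply, Nat.reduceAdd, zero_add]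
  ring

theorem mp_hd_B1 (hα : ∀ k, HasDerivAt (fun z => α z k) (α x (k + 1)) x)
    (hβ : ∀ k, HasDerivAt (fun z => β z k) (β x (k + 1)) x)
    (hγ : ∀ k, HasDerivAt (fun z => γ z k) (γ x (k + 1)) x) :
    HasDerivAt (fun z => mpB1 q (α z) (β z) (γ z)) (mpB2 q (α x) (β x) (γ x)) x := by
  have hP := mp_hd_PB (q := q) (hα 1) (hβ 1) (hβ 2) (hγ 1)
  have hP1 := mp_hd_PB1 (q := q) (hα 1) (hα 2) (hβ 1) (hβ 2) (hβ 3) (hγ 1) (hγ 2)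
  have h := (mp_hd_expmul (hα 0) (hP1.sub ((hα 1).mul hP))).add
    (((hβ 1).const_mul (2 * (q - 1))).mul (mp_hd_exp (hβ 0)))
  refine h.congr_deriv ?_
  unfold mpB2 mpPB1
  simp only [Pi.sub_apply, Pi.mul_apply, Nat.reduceAdd, zero_add]
  ring

theorem mp_hd_C1 (hα : ∀ k, HasDerivAt (fun z => α z k) (α x (k + 1)) x)
    (hβ : ∀ k, HasDerivAt (fun z => β z k) (β x (k + 1)) x)
    (hγ : ∀ k, HasDerivAt (fun z => γ z k) (γ x (k + 1)) x) :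
    HasDerivAt (fun z => mpC1 q (α z) (β z) (γ z)) (mpC2 q (α x) (β x) (γ x)) x := by
  have hP := mp_hd_PC (q := q) (hα 1) (hβ 1) (hγ 1) (hγ 2)
  have hP1 := mp_hd_PC1 (q := q) (hα 1) (hα 2) (hβ 1) (hβ 2) (hγ 1) (hγ 2) (hγ 3)
  have h := (mp_hd_expmul (hα 0) (hP1.sub ((hα 1).mul hP))).add
    (((hγ 1).const_mul 2).mul (mp_hd_exp (hγ 0)))
  refine h.congr_deriv ?_
  unfold mpC2 mpPC1
  simp only [Pi.sub_apply, Pi.mul_apply, Nat.reduceAdd, zero_add]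
  ring

end chain

end Claimed.Agent.R324
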