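/-
Row 324, module MP (scalar curvature evolution): assembly.
`mpJk f k` is the `k`-th `r`-derivative of `f`, `mpJ f p` the sequence of all of them at `p`.
-/
import Claimed.Agent.R324.Reduced
import Claimed.Agent.R324.MP.Calc2
import Claimed.Agent.R324.MP.Jet1

set_option autoImplicit false

namespace Claimed.Agent.R324

open Set
open scoped ContDiff

/-- the `k`-th derivative in the second variable. -/
noncomputable def mpJk (f : ℝ × ℝ → ℝ) : ℕ → ℝ × ℝ → ℝ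
  | 0 => f
  | (k + 1) => mpDr (mpJk f k)

/-- the jet in the second variable. -/
noncomputable def mpJ (f : ℝ × ℝ → ℝ) (p : ℝ × ℝ) : ℕ → ℝ := fun k => mpJk f k p

variable {U : Set (ℝ × ℝ)}

theorem mpJk_smooth (hU : IsOpen U) {f : ℝ × ℝ → ℝ} (h : ContDiffOn ℝ ∞ f U) :
    ∀ k, ContDiffOn ℝ ∞ (mpJk f k) U
  | 0 => h
  | (k + 1) => mp_smooth_Dr hU (mpJk_smooth hU h k)

theorem mpJ_chain_r (hU : IsOpen U) {f : ℝ × ℝ → ℝ} (h : ContDiffOn ℝ ∞ f U) {t r : ℝ}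
    (hp : (t, r) ∈ U) (k : ℕ) :
    HasDerivAt (fun z => mpJ f (t, z) k) (mpJ f (t, r) (k + 1)) r :=
  mp_hasDerivAt_r hU (mpJk_smooth hU h k) hp

theorem mpJ_chain_t (hU : IsOpen U) {f : ℝ × ℝ → ℝ} (h : ContDiffOn ℝ ∞ f U) {t r : ℝ}
    (hp : (t, r) ∈ U) (k : ℕ) :
    HasDerivAt (fun s => mpJ f (s, r) k) (mpDt (mpJk f k) (t, r)) t :=
  mp_hasDerivAt_t hU (mpJk_smooth hU h k) hp

/-- differentiating a transport-type flow equation `∂_t f = F0 + V ∂_r f` in `r`. -/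
theorem mp_flow_jets (hU : IsOpen U) {f V F0 F1 F2 : ℝ × ℝ → ℝ}
    (hf : ContDiffOn ℝ ∞ f U) (hV : ContDiffOn ℝ ∞ V U)
    (h01 : ∀ t r, (t, r) ∈ U → HasDerivAt (fun z => F0 (t, z)) (F1 (t, r)) r)
    (h12 : ∀ t r, (t, r) ∈ U → HasDerivAt (fun z => F1 (t, z)) (F2 (t, r)) r)
    (hflow : ∀ p ∈ U, mpDt f p = F0 p + V p * mpJk f 1 p) :
    (∀ p ∈ U, mpDt (mpJk f 1) p = F1 p + mpJk V 1 p * mpJk f 1 p + V p * mpJk f 2 p) ∧
    (∀ p ∈ U, mpDt (mpJk f 2) p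
      = F2 p + mpJk V 2 p * mpJk f 1 p + 2 * mpJk V 1 p * mpJk f 2 p + V p * mpJk f 3 p) := by
  have first : ∀ p ∈ U, mpDt (mpJk f 1) p
      = F1 p + mpJk V 1 p * mpJk f 1 p + V p * mpJk f 2 p := by
    rintro ⟨t, r⟩ hp
    have hV0 : HasDerivAt (fun z => V (t, z)) (mpJk V 1 (t, r)) r := mpJ_chain_r hU hV hp 0
    have hf1 : HasDerivAt (fun z => mpJk f 1 (t, z)) (mpJk f 2 (t, r)) r :=
      mpJ_chain_r hU hf hp 1
    have hd : HasDerivAt (fun z => F0 (t, z) + V (t, z) * mpJk f 1 (t, z))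
        (F1 (t, r) + mpJk V 1 (t, r) * mpJk f 1 (t, r) + V (t, r) * mpJk f 2 (t, r)) r :=
      ((h01 t r hp).add (hV0.mul hf1)).congr_deriv (by ring)
    calc mpDt (mpJk f 1) (t, r) = mpDr (mpDt f) (t, r) := mp_comm hU hf _ hp
      _ = mpDr (fun p => F0 p + V p * mpJk f 1 p) (t, r) := mpDr_congr hU hflow _ hp
      _ = _ := mpDr_eq_of_hasDerivAt (f := fun p => F0 p + V p * mpJk f 1 p) hd
  refine ⟨first, ?_⟩
  rintro ⟨t, r⟩ hp
  have hV0 : HasDerivAt (fun z => V (t, z)) (mpJk V 1 (t, r)) r := mpJ_chain_r hU hV hp 0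
  have hV1 : HasDerivAt (fun z => mpJk V 1 (t, z)) (mpJk V 2 (t, r)) r := mpJ_chain_r hU hV hp 1
  have hf1 : HasDerivAt (fun z => mpJk f 1 (t, z)) (mpJk f 2 (t, r)) r :=
    mpJ_chain_r hU hf hp 1
  have hf2 : HasDerivAt (fun z => mpJk f 2 (t, z)) (mpJk f 3 (t, r)) r :=
    mpJ_chain_r hU hf hp 2
  have hd : HasDerivAt
      (fun z => F1 (t, z) + mpJk V 1 (t, z) * mpJk f 1 (t, z) + V (t, z) * mpJk f 2 (t, z))
      (F2 (t, r) + mpJk V 2 (t, r) * mpJk f 1 (t, r) + 2 * mpJk V 1 (t, r) * mpJk f 2 (t, r)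
        + V (t, r) * mpJk f 3 (t, r)) r :=
    (((h12 t r hp).add (hV1.mul hf1)).add (hV0.mul hf2)).congr_deriv (by ring)
  calc mpDt (mpJk f 2) (t, r) = mpDr (mpDt (mpJk f 1)) (t, r) :=
        mp_comm hU (mpJk_smooth hU hf 1) _ hp
    _ = mpDr (fun p => F1 p + mpJk V 1 p * mpJk f 1 p + V p * mpJk f 2 p) (t, r) :=
        mpDr_congr hU first _ hp
    _ = _ := mpDr_eq_of_hasDerivAt
        (f := fun p => F1 p + mpJk V 1 p * mpJk f 1 p + V p * mpJk f 2 p) hd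

/-- scalar curvature and its first two `r`-derivatives as functions of the jets. -/
noncomputable def mpS0 (q : ℝ) (ja jb jc : ℕ → ℝ) : ℝ :=
  -(mpA0 q ja jb jc + q * mpB0 q ja jb jc + 2 * mpC0 q ja jb jc) / 2

noncomputable def mpS1 (q : ℝ) (ja jb jc : ℕ → ℝ) : ℝ :=
  -(mpA1 q ja jb jc + q * mpB1 q ja jb jc + 2 * mpC1 q ja jb jc) / 2

noncomputable def mpS2 (q : ℝ) (ja jb jc : ℕ → ℝ) : ℝ :=
  -(mpA2 q ja jb jc + q * mpB2 q ja jb jc + 2 * mpC2 q ja jb jc) / 2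

section

variable {q : ℝ} {a b c V : ℝ × ℝ → ℝ}

theorem mp_hd_S0_r (hU : IsOpen U) (ha : ContDiffOn ℝ ∞ a U) (hb : ContDiffOn ℝ ∞ b U)
    (hc : ContDiffOn ℝ ∞ c U) {t r : ℝ} (hp : (t, r) ∈ U) :
    HasDerivAt (fun z => mpS0 q (mpJ a (t, z)) (mpJ b (t, z)) (mpJ c (t, z)))
      (mpS1 q (mpJ a (t, r)) (mpJ b (t, r)) (mpJ c (t, r))) r := by
  have hα := mpJ_chain_r hU ha hp
  have hβ := mpJ_chain_r hU hb hp
  have hγ := mpJ_chain_r hU hc hp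
  exact ((((mp_hd_A0 (q := q) hα hβ hγ).add ((mp_hd_B0 (q := q) hα hβ hγ).const_mul q)).add
    ((mp_hd_C0 (q := q) hα hβ hγ).const_mul 2)).neg).div_const 2

theorem mp_hd_S1_r (hU : IsOpen U) (ha : ContDiffOn ℝ ∞ a U) (hb : ContDiffOn ℝ ∞ b U)
    (hc : ContDiffOn ℝ ∞ c U) {t r : ℝ} (hp : (t, r) ∈ U) :
    HasDerivAt (fun z => mpS1 q (mpJ a (t, z)) (mpJ b (t, z)) (mpJ c (t, z)))
      (mpS2 q (mpJ a (t, r)) (mpJ b (t, r)) (mpJ c (t, r))) r := by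
  have hα := mpJ_chain_r hU ha hp
  have hβ := mpJ_chain_r hU hb hp
  have hγ := mpJ_chain_r hU hc hp
  exact ((((mp_hd_A1 (q := q) hα hβ hγ).add ((mp_hd_B1 (q := q) hα hβ hγ).const_mul q)).add
    ((mp_hd_C1 (q := q) hα hβ hγ).const_mul 2)).neg).div_const 2

/-- the evolution equation in jet form. -/
theorem mp_hd_S0_t (hU : IsOpen U) (ha : ContDiffOn ℝ ∞ a U) (hb : ContDiffOn ℝ ∞ b U)
    (hc : ContDiffOn ℝ ∞ c U) (hV : ContDiffOn ℝ ∞ V U)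
    (fa : ∀ p ∈ U, mpDt a p
      = mpA0 q (mpJ a p) (mpJ b p) (mpJ c p) + V p * mpJk a 1 p + 2 * mpJk V 1 p)
    (fb : ∀ p ∈ U, mpDt b p = mpB0 q (mpJ a p) (mpJ b p) (mpJ c p) + V p * mpJk b 1 p)
    (fc : ∀ p ∈ U, mpDt c p = mpC0 q (mpJ a p) (mpJ b p) (mpJ c p) + V p * mpJk c 1 p)
    {t r : ℝ} (hp : (t, r) ∈ U) :
    HasDerivAt (fun s => mpS0 q (mpJ a (s, r)) (mpJ b (s, r)) (mpJ c (s, r)))
      (Real.exp (-a (t, r)) * (mpS2 q (mpJ a (t, r)) (mpJ b (t, r)) (mpJ c (t, r))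
          + (-mpJk a 1 (t, r) / 2 + q * mpJk b 1 (t, r) / 2 + mpJk c 1 (t, r))
            * mpS1 q (mpJ a (t, r)) (mpJ b (t, r)) (mpJ c (t, r)))
        + V (t, r) * mpS1 q (mpJ a (t, r)) (mpJ b (t, r)) (mpJ c (t, r))
        + ((mpA0 q (mpJ a (t, r)) (mpJ b (t, r)) (mpJ c (t, r))) ^ 2
          + q * (mpB0 q (mpJ a (t, r)) (mpJ b (t, r)) (mpJ c (t, r))) ^ 2
          + 2 * (mpC0 q (mpJ a (t, r)) (mpJ b (t, r)) (mpJ c (t, r))) ^ 2) / 2) t := by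
  have hα := mpJ_chain_t hU ha hp
  have hβ := mpJ_chain_t hU hb hp
  have hγ := mpJ_chain_t hU hc hp
  have h := ((((mp_hd_A0_gen (q := q) hα hβ hγ).add
    ((mp_hd_B0_gen (q := q) hα hβ hγ).const_mul q)).add
    ((mp_hd_C0_gen (q := q) hα hβ hγ).const_mul 2)).neg).div_const 2
  -- the jets of the flow
  have ja := mp_flow_jets hU (f := a) (V := V)
    (F0 := fun p => mpA0 q (mpJ a p) (mpJ b p) (mpJ c p) + 2 * mpJk V 1 p)
    (F1 := fun p => mpA1 q (mpJ a p) (mpJ b p) (mpJ c p) + 2 * mpJk V 2 p)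
    (F2 := fun p => mpA2 q (mpJ a p) (mpJ b p) (mpJ c p) + 2 * mpJk V 3 p) ha hV
    (fun t r hp => (mp_hd_A0 (q := q) (mpJ_chain_r hU ha hp) (mpJ_chain_r hU hb hp)
      (mpJ_chain_r hU hc hp)).add ((mpJ_chain_r hU hV hp 1).const_mul 2))
    (fun t r hp => (mp_hd_A1 (q := q) (mpJ_chain_r hU ha hp) (mpJ_chain_r hU hb hp)
      (mpJ_chain_r hU hc hp)).add ((mpJ_chain_r hU hV hp 2).const_mul 2))
    (fun p hp => by rw [fa p hp]; ring)
  have jb := mp_flow_jets hU (f := b) (V := V)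
    (F0 := fun p => mpB0 q (mpJ a p) (mpJ b p) (mpJ c p))
    (F1 := fun p => mpB1 q (mpJ a p) (mpJ b p) (mpJ c p))
    (F2 := fun p => mpB2 q (mpJ a p) (mpJ b p) (mpJ c p)) hb hV
    (fun t r hp => mp_hd_B0 (q := q) (mpJ_chain_r hU ha hp) (mpJ_chain_r hU hb hp)
      (mpJ_chain_r hU hc hp))
    (fun t r hp => mp_hd_B1 (q := q) (mpJ_chain_r hU ha hp) (mpJ_chain_r hU hb hp)
      (mpJ_chain_r hU hc hp))
    fb
  have jc := mp_flow_jets hU (f := c) (V := V)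
    (F0 := fun p => mpC0 q (mpJ a p) (mpJ b p) (mpJ c p))
    (F1 := fun p => mpC1 q (mpJ a p) (mpJ b p) (mpJ c p))
    (F2 := fun p => mpC2 q (mpJ a p) (mpJ b p) (mpJ c p)) hc hV
    (fun t r hp => mp_hd_C0 (q := q) (mpJ_chain_r hU ha hp) (mpJ_chain_r hU hb hp)
      (mpJ_chain_r hU hc hp))
    (fun t r hp => mp_hd_C1 (q := q) (mpJ_chain_r hU ha hp) (mpJ_chain_r hU hb hp)
      (mpJ_chain_r hU hc hp))
    fc
  refine h.congr_deriv ?_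
  exact mp_alg q (Real.exp (-a (t, r))) (Real.exp (-b (t, r))) (Real.exp (-c (t, r)))
    (mpJk a 1 (t, r)) (mpJk a 2 (t, r)) (mpJk a 3 (t, r))
    (mpJk b 1 (t, r)) (mpJk b 2 (t, r)) (mpJk b 3 (t, r)) (mpJk b 4 (t, r))
    (mpJk c 1 (t, r)) (mpJk c 2 (t, r)) (mpJk c 3 (t, r)) (mpJk c 4 (t, r))
    (V (t, r)) (mpJk V 1 (t, r)) (mpJk V 2 (t, r))
    _ _ _ _ _ _ _ _ _
    (mpDt (mpJk a 0) (t, r)) (mpDt (mpJk a 1) (t, r))
    (mpDt (mpJk b 0) (t, r)) (mpDt (mpJk b 1) (t, r)) (mpDt (mpJk b 2) (t, r))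
    (mpDt (mpJk c 0) (t, r)) (mpDt (mpJk c 1) (t, r)) (mpDt (mpJk c 2) (t, r))
    _ _ _
    rfl rfl rfl rfl rfl rfl rfl rfl rfl
    (fa _ hp) (by rw [ja.1 _ hp]; ring)
    (fb _ hp) (jb.1 _ hp) (jb.2 _ hp)
    (fc _ hp) (jc.1 _ hp) (jc.2 _ hp)
    rfl rfl rfl

end

/-- MP1 in the form of the skeleton. -/
theorem mp_scal_evolution (q : ℝ) (I J : Set ℝ) (hI : IsOpen I) (hJ : IsOpen J)
    (a b c V : ℝ × ℝ → ℝ)
    (ha : ContDiffOn ℝ ∞ a (I ×ˢ J)) (hb : ContDiffOn ℝ ∞ b (I ×ˢ J))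
    (hc : ContDiffOn ℝ ∞ c (I ×ˢ J)) (hV : ContDiffOn ℝ ∞ V (I ×ˢ J))
    (fa : ∀ t ∈ I, ∀ r ∈ J, deriv (fun s => a (s, r)) t
      = rfA q (fun z => a (t, z)) (fun z => b (t, z)) (fun z => c (t, z)) r
        + V (t, r) * deriv (fun z => a (t, z)) r + 2 * deriv (fun z => V (t, z)) r)
    (fb : ∀ t ∈ I, ∀ r ∈ J, deriv (fun s => b (s, r)) t
      = rfB q (fun z => a (t, z)) (fun z => b (t, z)) (fun z => c (t, z)) r
        + V (t, r) * deriv (fun z => b (t, z)) r)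
    (fc : ∀ t ∈ I, ∀ r ∈ J, deriv (fun s => c (s, r)) t
      = rfC q (fun z => a (t, z)) (fun z => b (t, z)) (fun z => c (t, z)) r
        + V (t, r) * deriv (fun z => c (t, z)) r) :
    ∀ t ∈ I, ∀ r ∈ J,
      deriv (fun s => scalRed q (fun z => a (s, z)) (fun z => b (s, z)) (fun z => c (s, z)) r) t
      = Real.exp (-a (t, r)) *
          (iteratedDeriv 2 (scalRed q (fun z => a (t, z)) (fun z => b (t, z)) (fun z => c (t, z))) r
            + (-deriv (fun z => a (t, z)) r / 2 + q * deriv (fun z => b (t, z)) r / 2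
                + deriv (fun z => c (t, z)) r)
              * deriv (scalRed q (fun z => a (t, z)) (fun z => b (t, z)) (fun z => c (t, z))) r)
        + V (t, r) * deriv (scalRed q (fun z => a (t, z)) (fun z => b (t, z)) (fun z => c (t, z))) r
        + ((rfA q (fun z => a (t, z)) (fun z => b (t, z)) (fun z => c (t, z)) r) ^ 2
          + q * (rfB q (fun z => a (t, z)) (fun z => b (t, z)) (fun z => c (t, z)) r) ^ 2
          + 2 * (rfC q (fun z => a (t, z)) (fun z => b (t, z)) (fun z => c (t, z)) r) ^ 2) / 2 := by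
  intro t ht r hr
  have hU : IsOpen (I ×ˢ J) := hI.prod hJ
  have hp : (t, r) ∈ I ×ˢ J := ⟨ht, hr⟩
  have h1 : deriv (scalRed q (fun z => a (t, z)) (fun z => b (t, z)) (fun z => c (t, z))) r
      = mpS1 q (mpJ a (t, r)) (mpJ b (t, r)) (mpJ c (t, r)) :=
    (mp_hd_S0_r (q := q) hU ha hb hc hp).deriv
  have h2 : iteratedDeriv 2
      (scalRed q (fun z => a (t, z)) (fun z => b (t, z)) (fun z => c (t, z))) r
      = mpS2 q (mpJ a (t, r)) (mpJ b (t, r)) (mpJ c (t, r)) := by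
    rw [iteratedDeriv_succ, iteratedDeriv_one]
    have he : deriv (scalRed q (fun z => a (t, z)) (fun z => b (t, z)) (fun z => c (t, z)))
        =ᶠ[nhds r] fun z => mpS1 q (mpJ a (t, z)) (mpJ b (t, z)) (mpJ c (t, z)) := by
      filter_upwards [hJ.mem_nhds hr] with z hz
      exact (mp_hd_S0_r (q := q) hU ha hb hc (t := t) (r := z) ⟨ht, hz⟩).deriv
    rw [he.deriv_eq]
    exact (mp_hd_S1_r (q := q) hU ha hb hc hp).deriv
  rw [h1, h2]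
  exact (mp_hd_S0_t (q := q) (V := V) hU ha hb hc hV
    (fun p hp => fa p.1 hp.1 p.2 hp.2) (fun p hp => fb p.1 hp.1 p.2 hp.2)
    (fun p hp => fc p.1 hp.1 p.2 hp.2) hp).deriv

end Claimed.Agent.R324
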