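/-
Row 324, module MP, leaf MP2: weak maximum principle on `[t₁,t₂] × [-1,1]` (helper431).
Proof: for `ε > 0` the function `w = u - ε (t - t₁)` attains its maximum over the compact rectangle at `(t*,y*)`.
If `t* = t₁` then `w ≤ M`.  If `t* > t₁` then `u_t(t*,y*) ≥ ε > 0`, but
 * `y*` interior: `u_y = 0`, `u_yy ≤ 0`, so `u_t ≤ 0`;
 * `y* = 1`: `u_y ≥ 0`, `u_t ≤ -κ u_y ≤ 0`;   * `y* = -1`: `u_y ≤ 0`, `u_t ≤ κ u_y ≤ 0`.
-/
import Mathlib

set_option autoImplicit false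

namespace Claimed.Agent.R324

open Set Filter Topology
open scoped ContDiff

/-- maximum at the right end point of an interval: the derivative is `≥ 0`. -/
theorem mp_deriv_nonneg_of_max_left {g : ℝ → ℝ} {g' a x : ℝ} (hax : a < x) (hg : HasDerivAt g g' x)
    (hmax : ∀ s ∈ Icc a x, g s ≤ g x) : 0 ≤ g' := by
  have h1 : Tendsto (slope g x) (𝓝[<] x) (𝓝 g') :=
    (hasDerivAt_iff_tendsto_slope.1 hg).mono_left (nhdsWithin_mono _ fun s hs => ne_of_lt hs)
  refine ge_of_tendsto h1 ?_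
  filter_upwards [Ioo_mem_nhdsLT hax] with s hs
  rw [slope_def_field]
  exact div_nonneg_of_nonpos (by linarith [hmax s ⟨hs.1.le, hs.2.le⟩]) (by linarith [hs.2])

/-- maximum at the left end point of an interval: the derivative is `≤ 0`. -/
theorem mp_deriv_nonpos_of_max_right {g : ℝ → ℝ} {g' b x : ℝ} (hxb : x < b) (hg : HasDerivAt g g' x)
    (hmax : ∀ s ∈ Icc x b, g s ≤ g x) : g' ≤ 0 := by
  have h1 : Tendsto (slope g x) (𝓝[>] x) (𝓝 g') :=
    (hasDerivAt_iff_tendsto_slope.1 hg).mono_left (nhdsWithin_mono _ fun s hs => ne_of_gt hs)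
  refine le_of_tendsto h1 ?_
  filter_upwards [Ioo_mem_nhdsGT hxb] with s hs
  rw [slope_def_field]
  exact div_nonpos_of_nonpos_of_nonneg (by linarith [hmax s ⟨hs.1.le, hs.2.le⟩]) (by linarith [hs.1])

/-- second order condition at a local maximum. -/
theorem mp_iteratedDeriv_two_nonpos {h : ℝ → ℝ} {y : ℝ} (hc : ContinuousAt h y) (hmax : IsLocalMax h y) :
    iteratedDeriv 2 h y ≤ 0 := by
  have e : iteratedDeriv 2 h y = deriv (deriv h) y := by
    rw [iteratedDeriv_succ, iteratedDeriv_one]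
  rw [e]
  by_contra hpos
  push Not at hpos
  have hmin : IsLocalMin h y := isLocalMin_of_deriv_deriv_pos hpos hmax.deriv_eq_zero hc
  have hconst : h =ᶠ[𝓝 y] fun _ => h y := by
    filter_upwards [hmin, hmax] with s a b using le_antisymm b a
  have e2 : deriv h =ᶠ[𝓝 y] deriv (fun _ => h y) := hconst.deriv
  have : deriv (deriv h) y = 0 := by rw [e2.deriv_eq]; simp
  linarith

theorem mp_max_principle (t₁ t₂ : ℝ) (h12 : t₁ ≤ t₂) (u al be : ℝ × ℝ → ℝ) (O : Set (ℝ × ℝ)) (hO : IsOpen O)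
    (hsub : Icc t₁ t₂ ×ˢ Icc (-1 : ℝ) 1 ⊆ O) (hu : ContDiffOn ℝ 2 u O)
    (hal : ∀ t ∈ Icc t₁ t₂, ∀ y ∈ Ioo (-1 : ℝ) 1, 0 ≤ al (t, y))
    (hineq : ∀ t ∈ Icc t₁ t₂, ∀ y ∈ Ioo (-1 : ℝ) 1,
      deriv (fun s => u (s, y)) t ≤ al (t, y) * iteratedDeriv 2 (fun z => u (t, z)) y
        + be (t, y) * deriv (fun z => u (t, z)) y)
    (hend : ∀ t ∈ Icc t₁ t₂, ∀ y : ℝ, (y = 1 ∨ y = -1) → ∃ κ : ℝ, 0 ≤ κ ∧
      deriv (fun s => u (s, y)) t ≤ -κ * y * deriv (fun z => u (t, z)) y)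
    (M : ℝ) (h0 : ∀ y ∈ Icc (-1 : ℝ) 1, u (t₁, y) ≤ M) :
    ∀ t ∈ Icc t₁ t₂, ∀ y ∈ Icc (-1 : ℝ) 1, u (t, y) ≤ M := by
  set K : Set (ℝ × ℝ) := Icc t₁ t₂ ×ˢ Icc (-1 : ℝ) 1 with hK
  have hKc : IsCompact K := isCompact_Icc.prod isCompact_Icc
  have hKne : K.Nonempty := ⟨(t₁, 0), ⟨le_refl _, h12⟩, ⟨by norm_num, by norm_num⟩⟩
  -- the key estimate
  have key : ∀ ε : ℝ, 0 < ε → ∀ p ∈ K, u p - ε * (p.1 - t₁) ≤ M := by
    intro ε hε
    have hcont : ContinuousOn (fun p : ℝ × ℝ => u p - ε * (p.1 - t₁)) K :=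
      (hu.continuousOn.mono hsub).sub (by fun_prop)
    obtain ⟨⟨ts, ys⟩, hmem, hmax⟩ := hKc.exists_isMaxOn hKne hcont
    have hts : ts ∈ Icc t₁ t₂ := hmem.1
    have hys : ys ∈ Icc (-1 : ℝ) 1 := hmem.2
    have hmax' : ∀ p ∈ K, u p - ε * (p.1 - t₁) ≤ u (ts, ys) - ε * (ts - t₁) := fun p hp => hmax hp
    suffices hM : u (ts, ys) - ε * (ts - t₁) ≤ M from fun p hp => (hmax' p hp).trans hM
    rcases eq_or_lt_of_le hts.1 with heq | hlt
    · rw [← heq]
      have := h0 ys hys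
      linarith
    · exfalso
      have hd : DifferentiableAt ℝ u (ts, ys) :=
        (hu.contDiffAt (hO.mem_nhds (hsub hmem))).differentiableAt (by norm_num)
      have hdt : DifferentiableAt ℝ (fun s => u (s, ys)) ts :=
        DifferentiableAt.comp (f := fun s : ℝ => (s, ys)) ts hd (by fun_prop)
      have hdy : DifferentiableAt ℝ (fun z => u (ts, z)) ys :=
        DifferentiableAt.comp (f := fun z : ℝ => (ts, z)) ys hd (by fun_prop)
      -- `u_t ≥ ε`
      have h1 : ε ≤ deriv (fun s => u (s, ys)) ts := by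
        have hg : HasDerivAt (fun s => u (s, ys) - ε * (s - t₁))
            (deriv (fun s => u (s, ys)) ts - ε * 1) ts :=
          hdt.hasDerivAt.sub (((hasDerivAt_id ts).sub_const t₁).const_mul ε)
        have := mp_deriv_nonneg_of_max_left hlt hg (fun s hs =>
          hmax' (s, ys) ⟨⟨hs.1, hs.2.trans hts.2⟩, hys⟩)
        linarith
      -- maximum in `y`
      have hmy : ∀ z ∈ Icc (-1 : ℝ) 1, u (ts, z) ≤ u (ts, ys) := by
        intro z hz
        have := hmax' (ts, z) ⟨hts, hz⟩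
        simpa using this
      rcases eq_or_lt_of_le hys.2 with hy1 | hy1
      · -- `ys = 1`
        subst hy1
        obtain ⟨κ, hκ, hk⟩ := hend ts hts 1 (Or.inl rfl)
        have h2 : 0 ≤ deriv (fun z => u (ts, z)) 1 :=
          mp_deriv_nonneg_of_max_left (a := -1) (by norm_num) hdy.hasDerivAt hmy
        have h3 : 0 ≤ κ * deriv (fun z => u (ts, z)) 1 := mul_nonneg hκ h2
        linarith
      rcases eq_or_lt_of_le hys.1 with hy2 | hy2
      · -- `ys = -1`
        subst hy2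
        obtain ⟨κ, hκ, hk⟩ := hend ts hts (-1) (Or.inr rfl)
        have h2 : deriv (fun z => u (ts, z)) (-1) ≤ 0 :=
          mp_deriv_nonpos_of_max_right (b := 1) (by norm_num) hdy.hasDerivAt hmy
        have h3 : κ * deriv (fun z => u (ts, z)) (-1) ≤ 0 := mul_nonpos_of_nonneg_of_nonpos hκ h2
        linarith
      · -- interior
        have hloc : IsLocalMax (fun z => u (ts, z)) ys := by
          filter_upwards [Icc_mem_nhds hy2 hy1] with z hz using hmy z hz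
        have h2 : deriv (fun z => u (ts, z)) ys = 0 := hloc.deriv_eq_zero
        have h3 : iteratedDeriv 2 (fun z => u (ts, z)) ys ≤ 0 :=
          mp_iteratedDeriv_two_nonpos hdy.continuousAt hloc
        have h4 := hineq ts hts ys ⟨hy2, hy1⟩
        have h5 := hal ts hts ys ⟨hy2, hy1⟩
        rw [h2, mul_zero, add_zero] at h4
        have h6 : al (ts, ys) * iteratedDeriv 2 (fun z => u (ts, z)) ys ≤ 0 :=
          mul_nonpos_of_nonneg_of_nonpos h5 h3
        linarith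
  intro t ht y hy
  apply le_of_forall_pos_le_add
  intro δ hδ
  have hT : 0 < t₂ - t₁ + 1 := by linarith
  have h1 := key (δ / (t₂ - t₁ + 1)) (div_pos hδ hT) (t, y) ⟨ht, hy⟩
  simp only at h1
  have h2 : δ / (t₂ - t₁ + 1) * (t - t₁) ≤ δ := by
    rw [div_mul_eq_mul_div, div_le_iff₀ hT]
    have : t - t₁ ≤ t₂ - t₁ + 1 := by linarith [ht.2]
    exact mul_le_mul_of_nonneg_left this hδ.le
  linarith

end Claimed.Agent.R324
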